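import Vale.Agent.P144D.I.Conv

/-!
Deep points of the regions of the class `ShapeZ`.
-/

namespace Vale.Agent.P144Z

open Finset GeoA IConv

namespace IDeep

/-- The lattice points along the ray of direction `(a, b)`. -/
noncomputable def fl (a b : ℝ) (t : ℕ) : ℤ × ℤ := (⌊t * a⌋, ⌊t * b⌋)

theorem zd_fl {a b : ℝ} (ha : |a| ≤ 1) (hb : |b| ≤ 1) (t : ℕ) : zd (fl a b t) 0 ≤ t := by
  have := floor_le ha t
  have := floor_le hb t
  simp only [zd, fl, Prod.fst_zero, Prod.snd_zero]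
  omega

theorem fl_zero (a b : ℝ) : fl a b 0 = 0 := by simp [fl]

theorem near {x y : ℤ} {D : ℕ} {c : ℝ} (h : (x - (y + ⌊c⌋)).natAbs ≤ D) :
    |(x : ℝ) - y - c| ≤ D + 1 := by
  have h1 : -(D : ℤ) ≤ x - (y + ⌊c⌋) ∧ x - (y + ⌊c⌋) ≤ D := by omega
  have h2 : -(D : ℝ) ≤ x - (y + ⌊c⌋) := by exact_mod_cast h1.1
  have h3 : (x : ℝ) - (y + ⌊c⌋) ≤ D := by exact_mod_cast h1.2
  rw [abs_le]
  constructor <;> linarith [Int.floor_le c, Int.lt_floor_add_one c]

/-- Points deep in the cone. -/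
theorem up {S : Set (ℤ × ℤ)} {ν : ℂ} {α κ a b : ℝ} (h : Epi S ν κ) (hν : ‖ν‖ = 1) (h0 : 0 ≤ κ)
    (h1 : 100 * κ ≤ α) (h2 : 100 * κ ≤ 1) (ha : |a| ≤ 1) (hb : |b| ≤ 1)
    (hab : α / 2 ≤ a * ν.re + b * ν.im) {u x : ℤ × ℤ} (hu : u ∈ S) {t D : ℕ}
    (hx : zd x (u + fl a b t) ≤ D) (hD : 5 * ((D : ℝ) + 1) ≤ t * α) : x ∈ S := by
  have key : κ * len (x - u) ≤ ht ν (x - u) := by
    refine (mul_le_mul_of_nonneg_left (len_le _) h0).trans ?_
    have e1 := near ((le_max_left _ _).trans hx)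
    have e2 := near ((le_max_right _ _).trans hx)
    simp only [ht, Prod.fst_sub, Prod.snd_sub]
    push_cast at e1 e2 ⊢
    have ht0 : (0 : ℝ) ≤ t := Nat.cast_nonneg t
    have hD0 : (0 : ℝ) ≤ D := Nat.cast_nonneg D
    set p := (x.1 : ℝ) - u.1 - t * a with hp
    set q := (x.2 : ℝ) - u.2 - t * b with hq
    have f1 : (x.1 : ℝ) - u.1 = t * a + p := by rw [hp]; ring
    have f2 : (x.2 : ℝ) - u.2 = t * b + q := by rw [hq]; ring
    have g : ∀ c w : ℝ, |c| ≤ 1 → |w| ≤ D + 1 → |t * c + w| ≤ t + (D + 1) := fun c w hc hw =>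
      (abs_add_le _ _).trans (add_le_add (abs_mul_le (abs_of_nonneg ht0).le hc) hw)
    rw [f1, f2]
    have g1 := g a p ha e1
    have g2 := g b q hb e2
    have g3 := (abs_le.1 (abs_mul_le e1 (abs_re hν))).1
    have g4 := (abs_le.1 (abs_mul_le e2 (abs_im hν))).1
    have g5 := mul_le_mul_of_nonneg_left hab ht0
    have g6 : κ * (|t * a + p| + |t * b + q|) ≤ κ * (2 * t + 2 * (D + 1)) :=
      mul_le_mul_of_nonneg_left (by linarith) h0
    have g7 := mul_le_mul_of_nonneg_left h1 ht0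
    have g8 := mul_le_mul_of_nonneg_left h2 (show (0 : ℝ) ≤ D + 1 by linarith)
    nlinarith
  simpa using h u hu _ key

/-- The local form of the shape: a direction along which the region is stable. -/
theorem exists_dir {Λ : Finset (ℤ × ℤ)} {α κ : ℝ} {r : ℕ} (h : ShapeZ Λ α κ r) (hα : 0 < α)
    (h0 : 0 ≤ κ) (h1 : 100 * κ ≤ α) (h2 : 100 * κ ≤ 1) (z : ℤ × ℤ) :
    ∃ a b : ℝ, |a| ≤ 1 ∧ |b| ≤ 1 ∧ ∀ (u x : ℤ × ℤ) (t D : ℕ), u ∈ Λ → zd u z ≤ r → zd x z ≤ r →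
      zd x (u + fl a b t) ≤ D → 5 * ((D : ℝ) + 1) ≤ t * α → x ∈ Λ := by
  obtain ⟨S₁, S₂, ν₁, ν₂, n1, n2, n3, e1, e2, hS⟩ := h z
  obtain ⟨a, b, ha, hb, m1, m2⟩ := exists_mu n1 n2 hα n3
  refine ⟨a, b, ha, hb, fun u x t D hu hur hxr hx hD => ?_⟩
  have k1 := (hS (u - z) (by rwa [zd_sub_zero])).1 (by simpa using hu)
  have k2 : zd (x - z) (u - z + fl a b t) ≤ D := by
    simp only [zd, Prod.fst_add, Prod.snd_add, Prod.fst_sub, Prod.snd_sub] at hx ⊢
    omega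
  have := (hS (x - z) (by rwa [zd_sub_zero])).2
    ⟨up e1 n1 h0 h1 h2 ha hb m1 k1.1 k2 hD, up e2 n2 h0 h1 h2 ha hb m2 k1.2 k2 hD⟩
  simpa using this

theorem exists_time {α : ℝ} {C : ℕ} (hC : 300 ≤ C * α) (s : ℕ) :
    300 * (s : ℝ) ≤ (C * s : ℕ) * α := by
  have := mul_le_mul_of_nonneg_left hC (Nat.cast_nonneg (α := ℝ) s)
  push_cast
  linarith

variable {Λ : Finset (ℤ × ℤ)} {α κ : ℝ} {r C : ℕ}

theorem cork (h : ShapeZ Λ α κ r) (hα : 0 < α) (h0 : 0 ≤ κ) (h1 : 100 * κ ≤ α) (h2 : 100 * κ ≤ 1)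
    (hC : 300 ≤ C * α) {d : ℕ} (hd : 1 ≤ d) (hr : (C + 50) * d ≤ r) {u : ℤ × ℤ} (hu : u ∈ Λ) :
    ∃ p, zd p u ≤ (C + 50) * d ∧ Deep Λ d p := by
  obtain ⟨a, b, ha, hb, key⟩ := exists_dir h hα h0 h1 h2 u
  have t1 := zd_fl ha hb (C * d)
  have t2 := exists_time hC d
  have t3 : (1 : ℝ) ≤ d := by exact_mod_cast hd
  rw [add_mul] at hr ⊢
  rw [← zd_add_left u] at t1
  refine ⟨u + fl a b (C * d), by omega, fun v hv => key u v (C * d) d hu ?_ ?_ hv (by linarith)⟩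
  · rw [IConv.zd_self]
    exact Nat.zero_le _
  · have := zd_tri v (u + fl a b (C * d)) u
    omega

theorem conn (h : ShapeZ Λ α κ r) (hα : 0 < α) (h0 : 0 ≤ κ) (h1 : 100 * κ ≤ α) (h2 : 100 * κ ≤ 1)
    (hC : 300 ≤ C * α) {d s : ℕ} (hd : C + 50 ≤ d) (hs : d ≤ s) (hr : (C + 50) * s ≤ r)
    {p p' : ℤ × ℤ} (hp : Deep Λ (2 * d) p) (hp' : Deep Λ (2 * d) p') (hpp : zd p p' ≤ s) :
    Rch (Deep Λ d) p p' := by
  obtain ⟨a, b, ha, hb, key⟩ := exists_dir h hα h0 h1 h2 p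
  rw [add_mul] at hr
  have move : ∀ q, Deep Λ (2 * d) q → zd q p ≤ s → ∀ t ≤ C * s,
      Rch (Deep Λ d) q (q + fl a b t) := by
    intro q hq hqp t
    induction t with
    | zero =>
      intro _
      rw [fl_zero, add_zero]
      exact Relation.ReflTransGen.refl
    | succ t ih =>
      intro ht
      refine (ih (by omega)).trans (rch_box (D := 1) (fun x hx y hy => ?_) ?_).symm
      · have t1 := zd_fl ha hb t
        rw [← zd_add_left q] at t1
        have t2 := zd_tri y x (q + fl a b t)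
        have t3 := zd_tri y (q + fl a b t) q
        by_cases hc : t + 1 ≤ d
        · exact hq y (by omega)
        · have t4 : zd (y - fl a b t) q ≤ d + 1 := by
            simp only [zd, Prod.fst_add, Prod.snd_add, Prod.fst_sub, Prod.snd_sub] at t2 hx hy ⊢
            omega
          have t5 := zd_tri (y - fl a b t) q p
          have t6 := zd_tri y q p
          refine key (y - fl a b t) y t 0 (hq _ (by omega)) (by omega) (by omega) ?_ ?_
          · rw [sub_add_cancel, IConv.zd_self]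
          · have t7 : (C : ℝ) ≤ t := by exact_mod_cast (by omega : C ≤ t)
            have := mul_le_mul_of_nonneg_right t7 hα.le
            push_cast
            linarith
      · have := floor_step ha t
        have := floor_step hb t
        simp only [zd, fl, Prod.fst_add, Prod.snd_add]
        omega
  have hp0 : p ∈ Λ := hp p (by rw [IConv.zd_self]; exact Nat.zero_le _)
  refine (move p hp (by rw [IConv.zd_self]; exact Nat.zero_le _) _ le_rfl).trans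
    ((move p' hp' (by rwa [zd_comm]) _ le_rfl).trans (rch_box (D := s) (fun x hx y hy => ?_) ?_)).symm
  · have t1 := zd_fl ha hb (C * s)
    rw [← zd_add_left p] at t1
    have t2 := zd_tri y x (p + fl a b (C * s))
    have t3 := zd_tri y (p + fl a b (C * s)) p
    have t4 := exists_time hC s
    have t5 : (1 : ℝ) ≤ s := by exact_mod_cast (by omega : 1 ≤ s)
    refine key p y (C * s) (2 * s) hp0 (by rw [IConv.zd_self]; exact Nat.zero_le _) (by omega)
      (by omega) ?_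
    push_cast at t4 ⊢
    linarith
  · simp only [zd, Prod.fst_add, Prod.snd_add] at hpp ⊢
    omega

theorem out (h : ShapeZ Λ α κ r) (hα : 0 < α) (h1 : 100 * κ ≤ α) (hC : 300 ≤ C * α) {s : ℕ}
    (hs : 1 ≤ s) (hr : (C + 50) * s ≤ r) {f f' : ℤ × ℤ} (hf : f ∉ Λ) (hf' : f' ∉ Λ)
    (hff : zd f f' ≤ s) : Rch (fun v => v ∉ Λ ∧ zd v f ≤ (C + 50) * s) f f' := by
  obtain ⟨S₁, S₂, ν₁, ν₂, n1, n2, n3, e1, e2, hS⟩ := h f
  have e1' := epi_mono e1 (κ' := α / 16) (by linarith)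
  have e2' := epi_mono e2 (κ' := α / 16) (by linarith)
  have hα2 : α ≤ 2 := by linarith [norm_add_le ν₁ ν₂]
  obtain ⟨a, b, ha, hb, m1, m2⟩ := exists_mu n1 n2 hα n3
  have hT := exists_time hC s
  have hs1 : (1 : ℝ) ≤ s := by exact_mod_cast hs
  rw [add_mul] at hr ⊢
  set T := C * s
  set P : ℤ × ℤ → Prop := fun x => f + x ∉ Λ ∧ zd x 0 ≤ T + 50 * s with hP
  have key : ∀ g, zd g 0 ≤ s → f + g ∉ Λ → ∃ e : ℤ × ℤ,
      (e = (1, 0) ∨ e = (0, 1) ∨ e = (-1, 0) ∨ e = (0, -1)) ∧ Rch P g (ray g e a b T) ∧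
      ∀ x, zd x (ray g e a b T) ≤ s + 24 → P x := by
    intro g hg hgI
    obtain ⟨S, ν, k1, k2, k3, k4, k5⟩ : ∃ (S : Set (ℤ × ℤ)) (ν : ℂ), ‖ν‖ = 1 ∧ Epi S ν (α / 16) ∧
        α / 2 ≤ a * ν.re + b * ν.im ∧ g ∉ S ∧ ∀ v, zd v 0 ≤ r → v ∉ S → f + v ∉ Λ := by
      have h7 := hS g (by omega)
      by_cases h8 : g ∈ S₁
      · exact ⟨S₂, ν₂, n2, e2', m2, fun h => hgI (h7.2 ⟨h8, h⟩),
          fun v hv h h' => h ((hS v hv).1 h').2⟩
      · exact ⟨S₁, ν₁, n1, e1', m1, h8, fun v hv h h' => h ((hS v hv).1 h').1⟩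
    obtain ⟨e, he, he'⟩ := exists_best k1
    refine ⟨e, he, rch_ray k2 k1 (by linarith) (by linarith) ha hb (by linarith) k4 he he'
      fun x h7 h8 => ?_, fun x hx => ?_⟩
    · have h9 : zd x 0 ≤ T + 50 * s := by
        have := zd_tri x g 0
        omega
      exact ⟨k5 x (by omega) h7, h9⟩
    · have h9 : zd x 0 ≤ T + 50 * s := by
        have := zd_ray ha hb g (unit_le he) T
        have := zd_tri x (ray g e a b T) g
        have := zd_tri x g 0
        omega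
      refine ⟨k5 x (by omega) (deep k2 k1 (by linarith) (by linarith) ha hb (by linarith) k4 he he'
        hx ?_), h9⟩
      push_cast at hT ⊢
      linarith
  have z0 : zd (0 : ℤ × ℤ) 0 ≤ s := by rw [IConv.zd_self]; exact Nat.zero_le _
  have z1 : zd (f' - f) 0 ≤ s := by rwa [zd_sub_zero, zd_comm]
  obtain ⟨e, he, p1, p2⟩ := key 0 z0 (by simpa using hf)
  obtain ⟨e', he', p3, -⟩ := key (f' - f) z1 (by simpa using hf')
  have p4 : Rch P 0 (f' - f) := by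
    refine p1.trans ((p3.trans (rch_box p2 ?_)).symm)
    have := zd_ray_ray a b 0 (f' - f) (unit_le he) (unit_le he') T
    omega
  have := rch_shift (Q := fun v => v ∉ Λ ∧ zd v f ≤ T + 50 * s) f
    (fun v hv => ⟨hv.1, by rw [zd_add_left]; exact hv.2⟩) p4
  simpa using this

end IDeep

theorem deepStmt : DeepStmt := by
  intro α hα
  have hC : 300 ≤ (⌈300 / α⌉₊ : ℕ) * α := (div_le_iff₀ hα).1 (Nat.le_ceil _)
  refine ⟨⌈300 / α⌉₊ + 50, by omega, fun κ Λ r h0 hκ h => ?_⟩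
  have h1 := hκ.trans (min_le_left _ _)
  have h2 := hκ.trans (min_le_right _ _)
  exact ⟨fun d hd hr u hu => IDeep.cork h hα h0.le h1 h2 hC hd hr hu,
    fun d s hd hs hr p p' hp hp' hpp => IDeep.conn h hα h0.le h1 h2 hC hd hs hr hp hp' hpp,
    fun s hs hr f f' hf hf' hff => rch_mono (fun _ hv => hv.1) (IDeep.out h hα h1 hC hs hr hf hf' hff)⟩

end Vale.Agent.P144Z
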